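import Vale.Agent.P141.PL.H262.Tree

/-!
# P141: the incremental projection process over the tree of face cubes

`D k m` = class of nice functions on the cube `cb k m` (helper262's `Nice`).  Time = scale, going
down from `n`.  `inc n F t` = the residual at time `t`: `inc n F (n+1) = F` and
`inc n F t` = projection of `inc n F (t+1)` on `D t m`, glued over all cubes of scale `t`.
-/

namespace Vale.Agent.P141.PL.H970

open Finset Vale.Agent.P141.PL.H262

noncomputable section

variable {D : ℕ → Pt → Set (Pt → ℝ)}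

/-- one step of the process: the projection on every cube of scale `t` -/
def st (hD : Nice D) (t : ℕ) (F : Pt → ℝ) : Pt → ℝ := fun p => pr hD t (cx t p) F p

/-- `j` steps -/
def stp (hD : Nice D) (n : ℕ) (F : Pt → ℝ) : ℕ → Pt → ℝ
  | 0 => F
  | j + 1 => st hD (n - j) (stp hD n F j)

/-- the residual at time `t` -/
def inc (hD : Nice D) (n : ℕ) (F : Pt → ℝ) (t : ℕ) : Pt → ℝ := stp hD n F (n + 1 - t)

theorem inc_top (hD : Nice D) (n : ℕ) (F : Pt → ℝ) {t : ℕ} (ht : n < t) : inc hD n F t = F := by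
  unfold inc
  rw [Nat.sub_eq_zero_of_le (by omega)]
  rfl

theorem inc_step (hD : Nice D) (n : ℕ) (F : Pt → ℝ) {t : ℕ} (ht : t ≤ n) :
    inc hD n F t = st hD t (inc hD n F (t + 1)) := by
  unfold inc
  have h1 : n + 1 - t = (n - t) + 1 := by omega
  have h2 : n + 1 - (t + 1) = n - t := by omega
  rw [h1, h2]
  show st hD (n - (n - t)) _ = _
  rw [Nat.sub_sub_self ht]

theorem st_eq (hD : Nice D) {t : ℕ} (F : Pt → ℝ) {m p : Pt} (hp : p ∈ cb t m) :
    st hD t F p = pr hD t m F p := by
  unfold st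
  rw [mem_cb.mp hp]

theorem st_mem (hD : Nice D) (t : ℕ) (F : Pt → ℝ) (m : Pt) : st hD t F ∈ D t m :=
  (hD.cc t m).loc _ _ (fun _ hp => (st_eq hD F hp).symm) (isPr_pr hD t m F).mem

/-- glueing upwards -/
theorem glue_up (hD : Nice D) {t : ℕ} {g : Pt → ℝ} (h : ∀ m, g ∈ D t m) :
    ∀ k, t ≤ k → ∀ m, g ∈ D k m := by
  intro k hk
  induction k, hk using Nat.le_induction with
  | base => exact h
  | succ k _ ih => exact fun m => hD.glue k m g fun m' _ => ih m'

/-- the residual at time `t` is nice on every cube of scale at least `t` -/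
theorem inc_mem (hD : Nice D) (n : ℕ) (F : Pt → ℝ) {t k : ℕ} (ht : t ≤ n) (hk : t ≤ k) (m : Pt) :
    inc hD n F t ∈ D k m := by
  rw [inc_step hD n F ht]
  exact glue_up hD (st_mem hD t _) k hk m

/-- the birth at time `t` -/
def ds (hD : Nice D) (n : ℕ) (F : Pt → ℝ) (t : ℕ) : Pt → ℝ :=
  fun p => inc hD n F (t + 1) p - inc hD n F t p

/-- the mass of the birth at time `t` over the set `A` -/
def mass (hD : Nice D) (n : ℕ) (F : Pt → ℝ) (t : ℕ) (A : Finset Pt) : ℝ :=
  ip A (ds hD n F t) (inc hD n F t)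

theorem energy_step (A : Finset Pt) (G g : Pt → ℝ) :
    nsq A G = nsq A g + 2 * ip A (fun p => G p - g p) g + nsq A (fun p => G p - g p) := by
  have : nsq A G = nsq A (fun p => g p + (G p - g p)) := nsq_congr fun p _ => by ring
  rw [this, nsq_add]
  congr 2
  unfold ip
  rw [mul_sum, mul_sum]
  exact sum_congr rfl fun p _ => by ring

/-- energy identity: drop of the energy = twice the mass + energy of the birth -/
theorem drop_eq (hD : Nice D) (n : ℕ) (F : Pt → ℝ) (t : ℕ) (A : Finset Pt) :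
    nsq A (inc hD n F (t + 1)) - nsq A (inc hD n F t) =
      2 * mass hD n F t A + nsq A (ds hD n F t) := by
  have := energy_step A (inc hD n F (t + 1)) (inc hD n F t)
  unfold mass ds
  linarith

/-- induction over the cubes of scale at least `t` -/
theorem cube_ind {t : ℕ} {u v : Pt → ℝ} {u' v' : Pt → ℝ}
    (h : ∀ m, ip (cb t m) u v ≤ ip (cb t m) u' v') :
    ∀ k, t ≤ k → ∀ m, ip (cb k m) u v ≤ ip (cb k m) u' v' := by
  intro k hk
  induction k, hk using Nat.le_induction with
  | base => exact h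
  | succ k _ ih =>
    intro m
    rw [ip_children, ip_children]
    exact sum_le_sum fun m' _ => ih m'

/-- the birth against a function which is nice on all cubes of scale `t` -/
theorem ds_dual (hD : Nice D) (n : ℕ) (F : Pt → ℝ) {t k : ℕ} (ht : t ≤ n) (hk : t ≤ k) (m : Pt)
    {h : Pt → ℝ} (hh : ∀ m, h ∈ D t m) :
    ip (cb k m) (ds hD n F t) h ≤ mass hD n F t (cb k m) := by
  refine cube_ind (fun m => ?_) k hk m
  have h1 := (isPr_pr hD t m (inc hD n F (t + 1))).dual (hD.cc t m).convex (hh m)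
  have e : ∀ p ∈ cb t m, inc hD n F t p = pr hD t m (inc hD n F (t + 1)) p := fun p hp => by
    rw [inc_step hD n F ht, st_eq hD _ hp]
  have e1 : ∀ p ∈ cb t m, ds hD n F t p =
      inc hD n F (t + 1) p - pr hD t m (inc hD n F (t + 1)) p := fun p hp => by
    unfold ds
    rw [e p hp]
  rw [ip_congr e1 (fun _ _ => rfl), ip_congr e1 e]
  exact h1

theorem zero_mem (hD : Nice D) (k : ℕ) (m : Pt) : (fun _ => (0 : ℝ)) ∈ D k m := (hD.cc k m).zero

theorem mass_nonneg (hD : Nice D) (n : ℕ) (F : Pt → ℝ) {t k : ℕ} (ht : t ≤ n) (hk : t ≤ k)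
    (m : Pt) : 0 ≤ mass hD n F t (cb k m) := by
  have h := ds_dual hD n F ht hk m (fun m' => zero_mem hD t m')
  have e : ip (cb k m) (ds hD n F t) (fun _ => 0) = 0 := by
    unfold ip; exact sum_eq_zero fun x _ => by ring
  linarith

/-- the energy is non-increasing in time -/
theorem nsq_step (hD : Nice D) (n : ℕ) (F : Pt → ℝ) {t k : ℕ} (ht : t ≤ n) (hk : t ≤ k)
    (m : Pt) : nsq (cb k m) (inc hD n F t) ≤ nsq (cb k m) (inc hD n F (t + 1)) := by
  have h1 := drop_eq hD n F t (cb k m)
  have h2 := mass_nonneg hD n F ht hk m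
  have h3 := nsq_nonneg (cb k m) (ds hD n F t)
  linarith

/-- total mass of the births between two times -/
theorem mass_sum_eq (hD : Nice D) (n : ℕ) (F : Pt → ℝ) {t T : ℕ} (htT : t ≤ T) (A : Finset Pt) :
    2 * ∑ r ∈ Ico t T, mass hD n F r A + ∑ r ∈ Ico t T, nsq A (ds hD n F r) =
      nsq A (inc hD n F T) - nsq A (inc hD n F t) := by
  induction T, htT using Nat.le_induction with
  | base => simp
  | succ T hT ih =>
    rw [sum_Ico_succ_top hT, sum_Ico_succ_top hT]
    have := drop_eq hD n F T A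
    linarith

/-- bounded variation: the total mass -/
theorem mass_sum_le (hD : Nice D) (n : ℕ) (F : Pt → ℝ) {t T : ℕ} (htT : t ≤ T) (A : Finset Pt) :
    2 * ∑ r ∈ Ico t T, mass hD n F r A ≤ nsq A (inc hD n F T) - nsq A (inc hD n F t) := by
  have h1 := mass_sum_eq hD n F htT A
  have h2 : 0 ≤ ∑ r ∈ Ico t T, nsq A (ds hD n F r) := sum_nonneg fun _ _ => nsq_nonneg _ _
  linarith

/-- the total change is the sum of the births -/
theorem sum_ds (hD : Nice D) (n : ℕ) (F : Pt → ℝ) {t T : ℕ} (htT : t ≤ T) (p : Pt) :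
    inc hD n F T p - inc hD n F t p = ∑ r ∈ Ico t T, ds hD n F r p := by
  induction T, htT using Nat.le_induction with
  | base => simp
  | succ T hT ih =>
    rw [sum_Ico_succ_top hT, ← ih]
    unfold ds
    ring

theorem ip_sum_left {ι : Type*} (s : Finset ι) (A : Finset Pt) (f : ι → Pt → ℝ) (g : Pt → ℝ) :
    ip A (fun p => ∑ r ∈ s, f r p) g = ∑ r ∈ s, ip A (f r) g := by
  unfold ip
  rw [sum_comm]
  exact sum_congr rfl fun p _ => by rw [sum_mul]

/-- the classes are symmetric -/
def Sy (D : ℕ → Pt → Set (Pt → ℝ)) : Prop := ∀ k m, ∀ g ∈ D k m, (fun p => -g p) ∈ D k m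

/-- **movement**: `|g_T - g_t|² ≤ 2 (|g_T|² - |g_t|²)` over every cube of scale at least `T - 1` -/
theorem move (hD : Nice D) (hS : Sy D) (n : ℕ) (F : Pt → ℝ) {t T k : ℕ} (htT : t ≤ T)
    (hT : T ≤ n + 1) (hk : T ≤ k + 1) (m : Pt) :
    nsq (cb k m) (fun p => inc hD n F T p - inc hD n F t p) ≤
      2 * (nsq (cb k m) (inc hD n F T) - nsq (cb k m) (inc hD n F t)) := by
  have h1 := energy_step (cb k m) (inc hD n F T) (inc hD n F t)
  have h2 : -ip (cb k m) (fun p => inc hD n F T p - inc hD n F t p) (inc hD n F t) ≤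
      ∑ r ∈ Ico t T, mass hD n F r (cb k m) := by
    have e : ip (cb k m) (fun p => inc hD n F T p - inc hD n F t p) (inc hD n F t) =
        ∑ r ∈ Ico t T, ip (cb k m) (ds hD n F r) (inc hD n F t) := by
      rw [← ip_sum_left]
      exact ip_congr (fun p _ => sum_ds hD n F htT p) fun _ _ => rfl
    rw [e, ← sum_neg_distrib]
    refine sum_le_sum fun r hr => ?_
    rw [mem_Ico] at hr
    have h3 := ds_dual hD n F (t := r) (k := k) (by omega) (by omega) m
      (h := fun p => -inc hD n F t p) fun m' => hS r m' _ (inc_mem hD n F (by omega) hr.1 m')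
    have e2 : ip (cb k m) (ds hD n F r) (fun p => -inc hD n F t p) =
        -ip (cb k m) (ds hD n F r) (inc hD n F t) := by
      unfold ip
      rw [← sum_neg_distrib]
      exact sum_congr rfl fun p _ => by ring
    rw [e2] at h3
    exact h3
  have h4 := mass_sum_le hD n F htT (cb k m)
  linarith

/-- energies over sets which are stable under damping are non-increasing -/
theorem line_step (hD : Nice D) (n : ℕ) (F : Pt → ℝ) {t k : ℕ} (ht : t ≤ n) (hk : t ≤ k)
    {B : Finset Pt} (hB : Damp D B) (m : Pt) :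
    nsq (cb k m ∩ B) (inc hD n F t) + nsq (cb k m ∩ B) (ds hD n F t) ≤
      nsq (cb k m ∩ B) (inc hD n F (t + 1)) := by
  revert m
  induction k, hk using Nat.le_induction with
  | base =>
    intro m
    have h1 := (isPr_pr hD t m (inc hD n F (t + 1))).line' (hD.cc t m).loc B (hB t m)
    have e : ∀ p ∈ cb t m ∩ B, inc hD n F t p = pr hD t m (inc hD n F (t + 1)) p :=
      fun p hp => by rw [inc_step hD n F ht, st_eq hD _ (mem_inter.mp hp).1]
    rw [nsq_congr e, nsq_congr (f := ds hD n F t)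
      (g := fun p => inc hD n F (t + 1) p - pr hD t m (inc hD n F (t + 1)) p)
      fun p hp => by unfold ds; rw [e p hp]]
    exact h1
  | succ k _ ih =>
    intro m
    rw [nsq_inter_children, nsq_inter_children, nsq_inter_children, ← sum_add_distrib]
    exact sum_le_sum fun m' _ => ih m'

theorem line_mono (hD : Nice D) (n : ℕ) (F : Pt → ℝ) {t T k : ℕ} (htT : t ≤ T) (hT : T ≤ n + 1)
    (hk : T ≤ k + 1) {B : Finset Pt} (hB : Damp D B) (m : Pt) :
    nsq (cb k m ∩ B) (inc hD n F t) ≤ nsq (cb k m ∩ B) (inc hD n F T) := by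
  induction T, htT using Nat.le_induction with
  | base => exact le_rfl
  | succ T hT' ih =>
    have h1 := ih (by omega) (by omega)
    have h2 := line_step hD n F (t := T) (k := k) (by omega) (by omega) hB m
    have h3 := nsq_nonneg (cb k m ∩ B) (ds hD n F T)
    linarith

/-- dual functions with values in the classes against the births -/
theorem dual_sum (hD : Nice D) (n : ℕ) (F : Pt → ℝ) {t T k : ℕ} (htT : t ≤ T) (hT : T ≤ n + 1)
    (hk : T ≤ k + 1) (m : Pt) {h : ℕ → Pt → ℝ} {B : ℝ} (hB : 0 < B)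
    (hh : ∀ r, t ≤ r → r < T → ∀ m, (fun p => B⁻¹ * h r p) ∈ D r m) :
    ∑ r ∈ Ico t T, ip (cb k m) (ds hD n F r) (h r) ≤ B * (nsq (cb k m) (inc hD n F T) / 2) := by
  have h1 : ∀ r ∈ Ico t T, ip (cb k m) (ds hD n F r) (h r) ≤ B * mass hD n F r (cb k m) := by
    intro r hr
    rw [mem_Ico] at hr
    have h2 := ds_dual hD n F (t := r) (k := k) (by omega) (by omega) m (hh r hr.1 hr.2)
    have e : ip (cb k m) (ds hD n F r) (fun p => B⁻¹ * h r p) =
        B⁻¹ * ip (cb k m) (ds hD n F r) (h r) := by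
      unfold ip
      rw [mul_sum]
      exact sum_congr rfl fun p _ => by ring
    rw [e, inv_mul_le_iff₀ hB] at h2
    exact h2
  refine (sum_le_sum h1).trans ?_
  rw [← mul_sum]
  refine mul_le_mul_of_nonneg_left ?_ hB.le
  have h3 := mass_sum_le hD n F htT (cb k m)
  have h4 := nsq_nonneg (cb k m) (inc hD n F t)
  linarith

end

end Vale.Agent.P141.PL.H970
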